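import Vale.Agent.P093.N0.MU
import Vale.Agent.P251.St.ToFunctor

/-!
# P241: the model of `MU` used by all blocks

`Ctx S` for `S : Susp T` : a model `M : MUMon F (stdEven T) e` of `MU` in `T`
(`F = S.toSpaceFunctor`, `e = lineIso F`) with a basis `b` of `R ⊗ R`.

* `X.D : MUData T.C`, `X.muUniv : MUUniv X.e X.D`, `X.muAll : MUAll X.D`;
* `X.o : Q.Orientation (thK X.e X.R)` : the orientation of the cohomology theory of `MU`, with
  `X.law_eq : X.D.law = X.o.law.map (coefK X.e X.R)`;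
* `Ctx.nonempty`.
-/

open CategoryTheory MonoidalCategory Limits Pretriangulated MonObj
open Vale.Agent.P251 Vale.Agent.P251.St Vale.Agent.P251.St.SHCat
open Vale.Agent.P251.I Vale.Agent.P251.T Vale.Agent.P251.M Vale.Agent.P251.F Vale.Agent.P251.S

noncomputable section

namespace Vale.Agent.P241.Final

/-- A model of `MU` in `T`. -/
structure Ctx {T : SHCat} (S : Susp T) where
  /-- the model of `MU` -/
  M : MUMon S.toSpaceFunctor (stdEven T.C) (lineIso S.toSpaceFunctor)
  /-- a basis of `R ⊗ R` -/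
  b : MUBasis M.V

namespace Ctx

variable {T : SHCat} {S : Susp T} (X : Ctx S)

/-- `Σ^∞`, as a functor on finite cell spaces -/
abbrev F (_X : Ctx S) : SpaceFunctor T.C := S.toSpaceFunctor

/-- `Σ^∞ ℂ⁺ ≅ 𝟙⟦1⟧ ⊗ 𝟙⟦1⟧` -/
abbrev e (_X : Ctx S) : S.toSpaceFunctor.S.obj CCF ≅ (stdEven T.C).L := lineIso S.toSpaceFunctor

/-- the data of `MU` -/
def D : MUData T.C := X.M.data X.b

/-- the ring spectrum `MU` -/
abbrev R : T.C := X.M.R

theorem D_R : X.D.R = X.M.R := rfl

theorem muUniv : MUUniv X.e X.D := X.M.muUniv X.b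

theorem muAll : P093.N0.MUAll X.D := P093.N0.MUMon.muAll X.M X.b

/-- the orientation of the cohomology theory of `MU` -/
def o : Q.Orientation (thK X.e X.M.R) := X.M.orient

theorem law_eq : X.D.law = X.o.law.map (coefK X.e X.M.R) := X.M.data_law X.b

theorem nonempty (S : Susp T) : Nonempty (Ctx S) := by
  obtain ⟨M⟩ := nonempty_MUMon S.toSpaceFunctor (stdEven T.C) (lineIso S.toSpaceFunctor)
  obtain ⟨b⟩ := M.nonempty_muBasis
  exact ⟨⟨M, b⟩⟩

end Ctx

end Vale.Agent.P241.Final
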