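import Vale.Agent.P241.Final.Level1
import Vale.Agent.P241.H132.Stage
import Vale.Agent.P241.H486.Fix
import Vale.Agent.P241.R.TSide

/-!
# P241: the lower bound from the blocks

* `typeN_of` : `TypeN` from a finite cell space of type `n` (`R.TypeStmt`) and `TrivGFC`.
* `lowerBound_of_blocks` : `LowerBound S p` from the blocks.
-/

open CategoryTheory MonoidalCategory OnePoint
open Vale.Agent.P251.St Vale.Agent.P251.St.SHCat Vale.Agent.P241.St

namespace Vale.Agent.P241.Final

/-- A finite cell space with trivial action is a finite `G`-cell space. -/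
def TrivGFC : Prop :=
  ∀ (G : Type) [Group G] [Finite G] (Y : Space), FC Y → GFC G (GSpace.triv G Y)

/-- `Y^G = Y` if the action is trivial. -/
def fixTriv (G : Type) [Group G] (Y : Space) (V : Subgroup G) :
    Y.carrier ≃ₜ ((GSpace.triv G Y).fix V).carrier where
  toFun y := ⟨(show (GSpace.triv G Y).carrier from y), fun _ => rfl⟩
  invFun y := (show Y.carrier from y.1)
  left_inv _ := rfl
  right_inv _ := rfl
  continuous_toFun := continuous_induced_rng.2 continuous_id
  continuous_invFun := continuous_subtype_val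

section

variable {T : SHCat} (S : Susp T) (p : ℕ)

theorem typeN_of (hT : R.TypeStmt S p) (hG : TrivGFC) : TypeN S p := by
  intro K hK G _ _ _ n
  obtain ⟨Y, hY, h1, h2⟩ := hT K hK n
  refine ⟨⟨GSpace.triv G Y, hG G Y hY⟩, fun j hj => ?_, fun h => h2 ?_⟩
  · exact acyclic_of_maps S hY (H486.fixFC G _ (hG G Y hY) ⊤) (mapOfHomeo (fixTriv G Y ⊤))
      (mapOfHomeo (fixTriv G Y ⊤).symm) (mapOfHomeo_comp (fixTriv G Y ⊤)) (h1 j hj)
  · exact acyclic_of_maps S (H486.fixFC G _ (hG G Y hY) ⊤) hY (mapOfHomeo (fixTriv G Y ⊤).symm)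
      (mapOfHomeo (fixTriv G Y ⊤)) (mapOfHomeo_comp (fixTriv G Y ⊤).symm) h

/-- **The lower bound** from the blocks. -/
theorem lowerBound_of_blocks [Fact p.Prime]
    {VV : ∀ (_t a : ℕ) (C : Space), Map (Rn a) C → Prop}
    (hTriv : TrivGFC) (hType : R.TypeStmt S p) (hW : H132.WeylGFC) (hTp : H132.TpFC)
    (hR : H132.RkEx S p) (key : Key S p VV) (skel : H132.SkelMap S p VV)
    (cone : H132.ConeG S p) (young : H132.YoungG S p) : LowerBound S p :=
  lowerBound_of S p H486.fixFC (typeN_of S p hType hTriv)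
    (H132.stageLemma_of S H486.fixFC hW hTp hR key skel cone young)

end

end Vale.Agent.P241.Final
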