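import Vale.Agent.P241.St.Defs
import Mathlib.GroupTheory.Rank
import Mathlib.Topology.Instances.Real.Lemmas

/-!
# P241: the `b`-form of Claim T

* `starSet I` : the open cone on the discrete set `I` (at most one coordinate is nonzero);
  `(starSet I)⁺` is the unreduced suspension of `I`.
* `tp G I k` : the `G`-space `(star I)^k` for a finite `G`-set `I`; `(tp G I k)⁺` is the
  unreduced suspension of the join of `k` copies of `I`.
* `BForm X k v` : the `b`-form.
* `NearVan` : the hypothesis of Claim T.
* `Key` : Claim T.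
-/

open OnePoint Vale.Agent.P251.St Vale.Agent.P251.St.SHCat Vale.Agent.P241.St

noncomputable section

namespace Vale.Agent.P241.Final

/-! ### Stars -/

section Star

/-- The open cone on the discrete set `I`. -/
abbrev starSet (I : Type) : Set (I → ℝ) :=
  {x | (∀ i, 0 ≤ x i) ∧ ∀ i j, i ≠ j → x i = 0 ∨ x j = 0}

theorem isClosed_starSet (I : Type) : IsClosed (starSet I) := by
  have h : starSet I = (⋂ i, {x : I → ℝ | 0 ≤ x i}) ∩
      ⋂ i, ⋂ j, ⋂ _ : i ≠ j, ({x : I → ℝ | x i = 0} ∪ {x : I → ℝ | x j = 0}) := by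
    ext x
    simp [starSet]
  rw [h]
  refine (isClosed_iInter fun i => isClosed_le continuous_const (continuous_apply i)).inter
    (isClosed_iInter fun i => isClosed_iInter fun j => isClosed_iInter fun _ => ?_)
  exact (isClosed_eq (continuous_apply i) continuous_const).union
    (isClosed_eq (continuous_apply j) continuous_const)

/-- The `k`-th power of the open cone on `I`. -/
abbrev starPow (I : Type) (k : ℕ) : Set (Fin k → I → ℝ) := {z | ∀ l, z l ∈ starSet I}

theorem isClosed_starPow (I : Type) (k : ℕ) : IsClosed (starPow I k) := by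
  have h : starPow I k = ⋂ l, (fun z : Fin k → I → ℝ => z l) ⁻¹' starSet I := by
    ext z
    simp [starPow]
  rw [h]
  exact isClosed_iInter fun l => (isClosed_starSet I).preimage (continuous_apply l)

theorem zero_mem_starPow (I : Type) (k : ℕ) : (0 : Fin k → I → ℝ) ∈ starPow I k :=
  fun _ => ⟨fun _ => le_rfl, fun _ _ _ => Or.inl rfl⟩

theorem lc_starPow (I : Type) [Finite I] (k : ℕ) : LocallyCompactSpace (starPow I k) :=
  (isClosed_starPow I k).isClosedEmbedding_subtypeVal.locallyCompactSpace

/-- The `G`-space `(star I)^k`; `G` acts by permuting the coordinates through its action on `I`. -/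
def tp (G : Type) [Group G] (I : Type) [Finite I] [MulAction G I] (k : ℕ) : GSpace G :=
  letI : LocallyCompactSpace (starPow I k) := lc_starPow I k
  letI : MulAction G (starPow I k) :=
    { smul := fun g z => ⟨fun l i => z.1 l (g⁻¹ • i),
        fun l => ⟨fun i => (z.2 l).1 _, fun i j hij => (z.2 l).2 _ _ fun h => hij
          ((MulAction.injective g⁻¹) h)⟩⟩
      one_smul := fun z => Subtype.ext (funext fun l => funext fun i => by
        change z.1 l ((1 : G)⁻¹ • i) = z.1 l i
        rw [inv_one, one_smul])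
      mul_smul := fun g h z => Subtype.ext (funext fun l => funext fun i => by
        change z.1 l ((g * h)⁻¹ • i) = z.1 l (h⁻¹ • g⁻¹ • i)
        rw [mul_inv_rev, mul_smul]) }
  haveI : ContinuousConstSMul G (starPow I k) := ⟨fun g => by
    refine continuous_induced_rng.2 (continuous_pi fun l => continuous_pi fun i => ?_)
    exact (continuous_apply (g⁻¹ • i)).comp ((continuous_apply l).comp continuous_subtype_val)⟩
  ⟨starPow I k⟩

variable {G : Type} [Group G] {I : Type} [Finite I] [MulAction G I] {k : ℕ}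

theorem tp_smul (g : G) (z : (tp G I k).carrier) :
    (show starPow I k from g • z).1 = fun l i => (show starPow I k from z).1 l (g⁻¹ • i) := rfl

/-- the cone point of `(star I)^k` -/
def tpZero (G : Type) [Group G] (I : Type) [Finite I] [MulAction G I] (k : ℕ) :
    (tp G I k).carrier :=
  (⟨0, zero_mem_starPow I k⟩ : starPow I k)

end Star

/-! ### The `b`-form -/

section BForm

variable {W : Type} [Group W] [Finite W]

/-- **The `b`-form.** `v : P⁺ → Q⁺` is a map of spaces with trivial action. There is a pointed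
`W`-map `b : X⁺ ∧ ((star W)^(k+1))⁺ ∧ P⁺ → X⁺ ∧ ((star W)^k)⁺ ∧ Q⁺` which extends
`1 ∧ v : X⁺ ∧ P⁺ → X⁺ ∧ Q⁺`. -/
def BForm (X : GSpace W) (k : ℕ) {P Q : Space} (v : Map P Q) : Prop :=
  ∃ b : Map ((X.prod (tp W W (k + 1))).prod (GSpace.triv W P)).und
      ((X.prod (tp W W k)).prod (GSpace.triv W Q)).und,
    IsGMap (X := (X.prod (tp W W (k + 1))).prod (GSpace.triv W P))
      (Y := (X.prod (tp W W k)).prod (GSpace.triv W Q)) b.toFun ∧
    ∀ (x : X.carrier) (y : P.Pt),
      b.toFun (smash (X := (X.prod (tp W W (k + 1))).und) (Y := P)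
        (Space.pt (X := (X.prod (tp W W (k + 1))).und) (x, tpZero W W (k + 1))) y) =
      smash (X := (X.prod (tp W W k)).und) (Y := Q)
        (Space.pt (X := (X.prod (tp W W k)).und) (x, tpZero W W k)) (v.toFun y)

variable {T : SHCat} (S : Susp T)

/-- The hypothesis of Claim T at the height `t`: `X^V` is `K(j)`-acyclic for `j ≤ t - rk V`, for all
abelian subgroups `V ≠ 1`. -/
def NearVan (K : ℕ → RingA T) (t : ℕ) (X : GSpace W) : Prop :=
  ∀ V : Subgroup W, V ≠ ⊥ → (∀ x ∈ V, ∀ y ∈ V, x * y = y * x) → ∀ j, j + Group.rank V ≤ t →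
    Acyclic (K j).obj (S.obj (X.fix V))

/-- **Claim T** for the class `VV t` of maps `v : (ℝ^a)⁺ → C⁺` (honest representatives of
`m v_t^N ∈ π_* MU`, with `m` prime to `p`). -/
def Key (p : ℕ) (VV : ∀ (_t a : ℕ) (C : Space), Map (Rn a) C → Prop) : Prop :=
  ∀ K : ℕ → RingA T, (∀ i, IsMoravaK S p i (K i)) →
    ∀ (W : Type) [Group W] [Finite W], IsPGroup p W → ∀ X : GSpace W, GFC W X → ∀ t : ℕ,
      NearVan S K t X →
        ∃ (k a : ℕ) (C : Space) (v : Map (Rn a) C), FC C ∧ VV t a C v ∧ BForm X k v

end BForm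

end Vale.Agent.P241.Final
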