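import Vale.Agent.P241.St.Defs
import Vale.Agent.P251.St.Result
import Vale.Agent.P251.St.Result2
import Vale.Agent.P251.X.KExists

/-!
# P241: existence of the Morava K-theories at odd primes

`exists_moravaK_odd`, from the library of P251.
-/

open CategoryTheory MonoidalCategory
open Vale.Agent.P251 Vale.Agent.P251.St Vale.Agent.P251.St.SHCat Vale.Agent.P241.St

namespace Vale.Agent.P241.Final

theorem exists_moravaK_odd {T : SHCat} (S : Susp T) (p : ℕ) [hp : Fact p.Prime] (h2 : p ≠ 2) :
    ∃ K : ℕ → RingA T, ∀ i, IsMoravaK S p i (K i) := by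
  have := locallySmall_self.{0} T.C
  obtain ⟨K, h⟩ := exists_morava p hp.out.ne_zero T S fun n =>
    X.exists_isMorava S.toSpaceFunctor h2 n
  exact ⟨fun i => toA (K i), fun i => isMoravaK_toA (h i)⟩

end Vale.Agent.P241.Final
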