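import Vale.Agent.P241.St.Defs
import Vale.Agent.P251.St.Result2
import Vale.Agent.P251.X.KExists
import Vale.Agent.P251.X.HQSt

/-!
# P241: existence of the Morava K-theories in the sense of `St/Defs.lean`

* `exists_moravaK_zero` : `K(0)`, for every `p`;
* `exists_moravaK_odd` : all `K(i)`, for odd `p`;
* `exists_moravaK_of` : all `K(i)` for every `p`, from the `K(n)`, `n ≠ 0`, at `p = 2`.
-/

open CategoryTheory MonoidalCategory

namespace Vale.Agent.P241.Final

open Vale.Agent.P251 Vale.Agent.P251.St Vale.Agent.P251.St.SHCat Vale.Agent.P241.St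

variable {T : SHCat} (S : Susp T)

theorem exists_moravaK_zero (p : ℕ) : ∃ K : RingA T, IsMoravaK S p 0 K := by
  obtain ⟨R, hR⟩ := X.exists_isMorava_zero S p
  exact ⟨toA R, isMoravaK_toA hR⟩

theorem exists_moravaK_odd (p : ℕ) [hp : Fact p.Prime] (hp2 : p ≠ 2) :
    ∃ K : ℕ → RingA T, ∀ i, IsMoravaK S p i (K i) := by
  have := locallySmall_self.{0} T.C
  obtain ⟨K, hK⟩ := exists_morava p hp.out.ne_zero T S fun n =>
    X.exists_isMorava S.toSpaceFunctor hp2 n
  exact ⟨fun i => toA (K i), fun i => isMoravaK_toA (hK i)⟩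

/-- The Morava K-theories `K(n)`, `n ≠ 0`, at `p = 2` exist. -/
def ExistsTwo : Prop := ∀ n : ℕ, n ≠ 0 → ∃ K : RingA T, IsMoravaK S 2 n K

/-- The Morava K-theories of all heights exist, from their existence at `p = 2`. -/
theorem exists_moravaK_of (h : ExistsTwo S) (p : ℕ) [Fact p.Prime] :
    ∃ K : ℕ → RingA T, ∀ i, IsMoravaK S p i (K i) := by
  by_cases hp : p = 2
  · subst hp
    have h1 : ∀ i : ℕ, ∃ K : RingA T, IsMoravaK S 2 i K := by
      intro i
      by_cases hi : i = 0
      · subst hi
        exact exists_moravaK_zero S 2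
      · exact h i hi
    choose K hK using h1
    exact ⟨K, hK⟩
  · exact exists_moravaK_odd S p hp

end Vale.Agent.P241.Final
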