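import Mathlib.Algebra.Group.Subgroup.Finite
import Mathlib.Algebra.Group.Subgroup.Pointwise
import Mathlib.GroupTheory.Index
import Mathlib.Data.Fintype.Powerset

/-!
# P241: the top down induction over the subgroups

The abstract form of the last step of the lower bound: from the stage lemma (one subgroup `A`, one
height `t`) to a complex `X` with `K(n)(X^G) ≠ 0` and `K(j)(X^B) = 0` for `j < n + ℓ(G, B)`.

* `SubConj B A` : `B` is subconjugate to `A`.
* `stages` : the iteration over the heights.
* `topDown` : the induction over the subgroups.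
-/

open Pointwise

namespace Vale.Agent.P241.Final

universe u v

variable {G : Type u} [Group G]

/-- `B` is subconjugate to `A`. -/
def SubConj (B A : Subgroup G) : Prop := ∃ g : G, MulAut.conj g • B ≤ A

theorem SubConj.of_le {B A : Subgroup G} (h : B ≤ A) : SubConj B A := ⟨1, by simpa using h⟩

theorem card_conj (g : G) (B : Subgroup G) :
    Nat.card (MulAut.conj g • B : Subgroup G) = Nat.card B :=
  Nat.card_congr (Subgroup.equivSMul (MulAut.conj g) B).symm.toEquiv

theorem SubConj.card_le [Finite G] {B A : Subgroup G} (h : SubConj B A) :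
    Nat.card B ≤ Nat.card A := by
  obtain ⟨g, hg⟩ := h
  rw [← card_conj g B]
  exact Subgroup.card_le_of_le hg

theorem SubConj.conj_eq_of_card_le [Finite G] {B A : Subgroup G} (h : SubConj B A)
    (hc : Nat.card A ≤ Nat.card B) : ∃ g : G, MulAut.conj g • B = A := by
  obtain ⟨g, hg⟩ := h
  refine ⟨g, Subgroup.eq_of_le_of_card_ge hg ?_⟩
  rw [card_conj]
  exact hc

theorem card_lt_of_lt [Finite G] {A B : Subgroup G} (h : A < B) : Nat.card A < Nat.card B := by
  refine lt_of_le_of_ne (Subgroup.card_le_of_le h.le) fun hc => h.ne ?_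
  exact Subgroup.eq_of_le_of_card_ge h.le hc.ge

theorem not_subConj_of_lt [Finite G] {A B : Subgroup G} (h : A < B) : ¬ SubConj B A :=
  fun hs => absurd hs.card_le (not_le.2 (card_lt_of_lt h))

/-- The hypothesis on the larger fixed points in the stage lemma at height `t`: for `A < B` with
`A` normal in `B` and `B / A` abelian, `X^B` is `K(j)`-acyclic for `j ≤ t - rk(B / A)`. -/
def StageHyp {Cx : Type v} (V : ℕ → Cx → Subgroup G → Prop)
    (rk : Subgroup G → Subgroup G → ℕ) (A : Subgroup G) (t : ℕ) (X : Cx) : Prop :=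
  ∀ B : Subgroup G, A < B → B ≤ Subgroup.normalizer (A : Set G) →
    (∀ x ∈ B, ∀ y ∈ B, x * y * x⁻¹ * y⁻¹ ∈ A) → ∀ j, j + rk A B ≤ t → V j X B

/-- The conclusion of the stage lemma at `A` for the heights in `J`. -/
def StageOut {Cx : Type v} (V : ℕ → Cx → Subgroup G → Prop) (A : Subgroup G) (T : ℕ)
    (X X' : Cx) : Prop :=
  (∀ j < T, V j X' A) ∧ ∀ B, ¬ SubConj B A → ∀ j, V j X' B ↔ V j X B

/-- The stage lemma at `A`: one height at a time. -/
def Stage {Cx : Type v} (V : ℕ → Cx → Subgroup G → Prop)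
    (rk : Subgroup G → Subgroup G → ℕ) (A : Subgroup G) : Prop :=
  ∀ (t : ℕ) (X : Cx), (∀ j < t, V j X A) → StageHyp V rk A t X →
    ∃ X', StageOut V A (t + 1) X X'

/-- The stage lemma for all heights: it may be iterated. -/
theorem stages [Finite G] {Cx : Type v} {V : ℕ → Cx → Subgroup G → Prop}
    {rk : Subgroup G → Subgroup G → ℕ} {A : Subgroup G} (stage : Stage V rk A)
    (X : Cx) (T : ℕ) (hT : ∀ t < T, StageHyp V rk A t X) :
    ∃ X', StageOut V A T X X' := by
  induction T with
  | zero => exact ⟨X, by simp, fun _ _ _ => Iff.rfl⟩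
  | succ T ih =>
    obtain ⟨Y, hY, hYB⟩ := ih fun t ht => hT t (ht.trans (Nat.lt_succ_self T))
    obtain ⟨Z, hZ, hZB⟩ := stage T Y hY fun B hB hBN hBA j hj =>
      (hYB B (not_subConj_of_lt hB) j).2 (hT T (Nat.lt_succ_self T) B hB hBN hBA j hj)
    exact ⟨Z, hZ, fun B hB j => (hZB B hB j).trans (hYB B hB j)⟩

/-- **The top down induction.** -/
theorem topDown [Finite G] {Cx : Type v} (V : ℕ → Cx → Subgroup G → Prop)
    (rk : Subgroup G → Subgroup G → ℕ) (ell : Subgroup G → ℕ) (n : ℕ)
    (hVconj : ∀ (j : ℕ) (X : Cx) (B : Subgroup G) (g : G), V j X B → V j X (MulAut.conj g • B))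
    (hell_top : ell ⊤ = 0)
    (hell_conj : ∀ (B : Subgroup G) (g : G), ell (MulAut.conj g • B) = ell B)
    (hell : ∀ A B : Subgroup G, A < B → B ≤ Subgroup.normalizer (A : Set G) →
      (∀ x ∈ B, ∀ y ∈ B, x * y * x⁻¹ * y⁻¹ ∈ A) → ell A ≤ ell B + rk A B)
    (start : ∃ X : Cx, (∀ j < n, V j X ⊤) ∧ ¬ V n X ⊤)
    (stage : ∀ A : Subgroup G, A ≠ ⊤ → Stage V rk A) :
    ∃ X : Cx, ¬ V n X ⊤ ∧ ∀ B, ∀ j < n + ell B, V j X B := by
  classical
  have : Finite (Subgroup G) :=
    Finite.of_injective (fun H : Subgroup G => (H : Set G)) SetLike.coe_injective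
  have : Fintype (Subgroup G) := Fintype.ofFinite _
  -- from the subgroups in `S` to all subgroups
  have key : ∀ (m : ℕ) (S : Finset (Subgroup G)), Sᶜ.card ≤ m →
      (∀ B ∈ S, ∀ C, SubConj B C → C ∈ S) → ⊤ ∈ S →
      (∃ X : Cx, ¬ V n X ⊤ ∧ ∀ B ∈ S, ∀ j < n + ell B, V j X B) →
      ∃ X : Cx, ¬ V n X ⊤ ∧ ∀ B, ∀ j < n + ell B, V j X B := by
    intro m
    induction m with
    | zero =>
      intro S hS _ _ ⟨X, hX, hXB⟩
      have hS' : Sᶜ = ∅ := Finset.card_eq_zero.1 (Nat.le_zero.1 hS)
      exact ⟨X, hX, fun B => hXB B (by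
        by_contra hB
        have : B ∈ Sᶜ := Finset.mem_compl.2 hB
        simp [hS'] at this)⟩
    | succ m ih =>
      intro S hS hup htop ⟨X, hX, hXB⟩
      by_cases hne : Sᶜ.Nonempty
      · obtain ⟨A, hA, hmax⟩ := Finset.exists_max_image Sᶜ (fun B => Nat.card B) hne
        have hAS : A ∉ S := Finset.mem_compl.1 hA
        have hbig : ∀ B : Subgroup G, Nat.card A < Nat.card B → B ∈ S := fun B hB => by
          by_contra h
          exact absurd (hmax B (Finset.mem_compl.2 h)) (not_le.2 hB)
        have hAtop : A ≠ ⊤ := fun h => hAS (h ▸ htop)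
        obtain ⟨X', hXA, hX'⟩ := stages (stage A hAtop) X (n + ell A)
          fun t ht B hB hBN hBA j hj =>
            hXB B (hbig B (card_lt_of_lt hB)) j (by have := hell A B hB hBN hBA; omega)
        have hnot : ∀ B ∈ S, ¬ SubConj B A := fun B hB h => hAS (hup B hB A h)
        let S' : Finset (Subgroup G) := S ∪ Finset.univ.filter fun C => ∃ g : G,
          MulAut.conj g • A = C
        have hmem : ∀ C, C ∈ S' ↔ C ∈ S ∨ ∃ g : G, MulAut.conj g • A = C := fun C => by
          simp [S']
        refine ih S' ?_ ?_ ((hmem _).2 (Or.inl htop)) ⟨X', ?_, ?_⟩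
        · have hss : S'ᶜ ⊂ Sᶜ := by
            refine Finset.ssubset_iff_subset_ne.2 ⟨?_, ?_⟩
            · exact Finset.compl_subset_compl.2 Finset.subset_union_left
            · intro h
              have : A ∈ S'ᶜ := h ▸ hA
              exact (Finset.mem_compl.1 this) ((hmem A).2 (Or.inr ⟨1, by simp⟩))
          have := Finset.card_lt_card hss
          omega
        · intro B hB C hC
          rcases (hmem B).1 hB with h | ⟨g, rfl⟩
          · exact (hmem C).2 (Or.inl (hup B h C hC))
          · have hc : Nat.card A ≤ Nat.card C := (card_conj g A).symm.le.trans hC.card_le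
            rcases hc.lt_or_eq with h | h
            · exact (hmem C).2 (Or.inl (hbig C h))
            · obtain ⟨k, hk⟩ := hC.conj_eq_of_card_le (by rw [card_conj]; exact h.ge)
              exact (hmem C).2 (Or.inr ⟨k * g, by rw [map_mul, mul_smul]; exact hk⟩)
        · exact fun h => hX ((hX' ⊤ (hnot ⊤ htop) n).1 h)
        · intro B hB j hj
          rcases (hmem B).1 hB with h | ⟨g, rfl⟩
          · exact (hX' B (hnot B h) j).2 (hXB B h j hj)
          · exact hVconj j X' A g (hXA j (by rwa [hell_conj] at hj))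
      · refine ⟨X, hX, fun B => hXB B (by
          by_contra hB
          exact hne ⟨B, Finset.mem_compl.2 hB⟩)⟩
  obtain ⟨X, h1, h2⟩ := start
  refine key _ {⊤} le_rfl ?_ (Finset.mem_singleton_self _) ⟨X, h2, ?_⟩
  · intro B hB C hC
    rw [Finset.mem_singleton] at hB ⊢
    subst hB
    exact Subgroup.eq_of_le_of_card_ge le_top hC.card_le
  · intro B hB j hj
    rw [Finset.mem_singleton] at hB
    subst hB
    exact h1 j (by rwa [hell_top, add_zero] at hj)

end Vale.Agent.P241.Final
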