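import Vale.Agent.P241.St.Defs
import Vale.Agent.P241.Final.TopDown
import Vale.Agent.P241.H122.Chains

/-!
# P241: the lower bound from the stage lemma

* `Van S K j X B` : `K(j)_* (X^B) = 0`.
* `relRank A B` : the rank of `B / A`.
* `lowerBound_of` : `LowerBound S p` from the stage lemma and a complex of type `n`.
-/

open CategoryTheory MonoidalCategory OnePoint Pointwise
open Vale.Agent.P251.St Vale.Agent.P251.St.SHCat Vale.Agent.P241.St

namespace Vale.Agent.P241.Final

/-! ### Group theory -/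

section Groups

variable {G : Type} [Group G]

/-- The rank of `B / A` : the least number of elements which generate `B` together with `A`. -/
noncomputable def relRank (A B : Subgroup G) : ℕ :=
  sInf {k | ∃ s : Finset G, s.card = k ∧ B = A ⊔ Subgroup.closure (s : Set G)}

theorem relRank_le {A B : Subgroup G} (s : Finset G)
    (h : B = A ⊔ Subgroup.closure (s : Set G)) : relRank A B ≤ s.card :=
  Nat.sInf_le ⟨s, rfl, h⟩

theorem exists_relRank [Finite G] {A B : Subgroup G} (h : A ≤ B) :
    ∃ s : Finset G, s.card = relRank A B ∧ B = A ⊔ Subgroup.closure (s : Set G) := by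
  classical
  have hf : (B : Set G).Finite := Set.toFinite _
  have hne : {k | ∃ s : Finset G, s.card = k ∧ B = A ⊔ Subgroup.closure (s : Set G)}.Nonempty :=
    ⟨_, hf.toFinset, rfl, by rw [hf.coe_toFinset, Subgroup.closure_eq, sup_eq_right.2 h]⟩
  exact Nat.sInf_mem hne

theorem ell_eq (H : Subgroup G) : St.ell H = H122.ell H := by
  rw [← H122.sInf_hasCyclicChain]
  rfl

theorem ell_top : St.ell (⊤ : Subgroup G) = 0 := by rw [ell_eq, H122.ell_top]

theorem ell_conj {p : ℕ} [Fact p.Prime] [Finite G] (hG : IsPGroup p G) (B : Subgroup G) (g : G) :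
    St.ell (MulAut.conj g • B) = St.ell B := by
  rw [ell_eq, ell_eq]
  exact H122.ell_conj hG g B

theorem ell_le {p : ℕ} [Fact p.Prime] [Finite G] (hG : IsPGroup p G) {A B : Subgroup G}
    (h : A < B) (hc : ∀ x ∈ B, ∀ y ∈ B, x * y * x⁻¹ * y⁻¹ ∈ A) :
    St.ell A ≤ St.ell B + relRank A B := by
  obtain ⟨s, h1, h2⟩ := exists_relRank h.le
  rw [ell_eq, ell_eq, ← h1]
  exact H122.ell_le_add_card hG hc s h2

end Groups

/-! ### Conjugate fixed points -/

section Fix

variable {T : SHCat} (S : Susp T)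

theorem acyclic_of_maps {E : T.C} {X Y : Space} (hX : FC X) (hY : FC Y) (f : Map X Y)
    (g : Map Y X) (hfg : f.toFun ∘ g.toFun = id) (h : Acyclic E (S.obj X)) :
    Acyclic E (S.obj Y) := by
  have hid : S.map g ≫ S.map f = 𝟙 (S.obj Y) := by
    have h1 := S.map_comp g f ⟨id, continuous_id, rfl⟩ hY hX hY hfg.symm
    rw [S.map_id ⟨id, continuous_id, rfl⟩ hY rfl] at h1
    exact h1.symm
  change 𝟙 (E ⊗ S.obj Y) = 0
  have h0 : 𝟙 (E ⊗ S.obj X) = 0 := h
  calc 𝟙 (E ⊗ S.obj Y) = E ◁ S.map g ≫ 𝟙 _ ≫ E ◁ S.map f := by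
        rw [Category.id_comp, ← MonoidalCategory.whiskerLeft_comp, hid,
          MonoidalCategory.whiskerLeft_id]
    _ = 0 := by rw [h0, Limits.zero_comp, Limits.comp_zero]

/-- A homeomorphism as a pointed map of one-point compactifications. -/
def mapOfHomeo {X Y : Space} (e : X.carrier ≃ₜ Y.carrier) : Map X Y :=
  ⟨OnePoint.map e, OnePoint.continuous_map e.continuous (by
    simpa only [Filter.coclosedCompact_eq_cocompact] using
      e.isClosedEmbedding.tendsto_cocompact), rfl⟩

theorem mapOfHomeo_comp {X Y : Space} (e : X.carrier ≃ₜ Y.carrier) :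
    (mapOfHomeo e).toFun ∘ (mapOfHomeo (X := Y) (Y := X) e.symm).toFun = id := by
  funext y
  induction y using OnePoint.rec with
  | infty => rfl
  | coe y =>
    exact congrArg OnePoint.some (e.apply_symm_apply y)

variable {G : Type} [Group G]

/-- `X^B ≅ X^{gBg⁻¹}`. -/
def fixConj (X : GSpace G) (B : Subgroup G) (g : G) :
    (X.fix B).carrier ≃ₜ (X.fix (MulAut.conj g • B)).carrier where
  toFun x := ⟨g • x.1, fun h => by
    obtain ⟨_, b, hb, rfl⟩ := h
    have hx : b • x.1 = x.1 := x.2 ⟨b, hb⟩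
    change (g * b * g⁻¹) • g • x.1 = g • x.1
    rw [smul_smul, mul_assoc, inv_mul_cancel, mul_one, ← smul_smul, hx]⟩
  invFun x := ⟨g⁻¹ • x.1, fun b => by
    have hx : (g * b * g⁻¹) • x.1 = x.1 := x.2 ⟨g * b * g⁻¹, b, b.2, rfl⟩
    have h1 : (b : G) • g⁻¹ • x.1 = g⁻¹ • (g * b * g⁻¹) • x.1 := by
      rw [smul_smul, smul_smul]
      congr 1
      group
    exact h1.trans (by rw [hx])⟩
  left_inv x := Subtype.ext (inv_smul_smul g x.1)
  right_inv x := Subtype.ext (smul_inv_smul g x.1)
  continuous_toFun := Continuous.subtype_mk ((continuous_const_smul g).comp continuous_subtype_val) _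
  continuous_invFun :=
    Continuous.subtype_mk ((continuous_const_smul g⁻¹).comp continuous_subtype_val) _

/-- The finite `G`-cell spaces. -/
abbrev GCx (G : Type) [Group G] : Type 1 := {X : GSpace G // GFC G X}

/-- `K(j)_* (X^B) = 0`. -/
def Van (K : ℕ → RingA T) (j : ℕ) (X : GCx G) (B : Subgroup G) : Prop :=
  Acyclic (K j).obj (S.obj (X.1.fix B))

theorem van_conj [Finite G] (hF : FixFC) (K : ℕ → RingA T) (j : ℕ) (X : GCx G) (B : Subgroup G)
    (g : G) (h : Van S K j X B) : Van S K j X (MulAut.conj g • B) :=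
  acyclic_of_maps S (hF G X.1 X.2 _) (hF G X.1 X.2 _) (mapOfHomeo (fixConj X.1 B g))
    (mapOfHomeo (fixConj X.1 B g).symm) (mapOfHomeo_comp (fixConj X.1 B g)) h

end Fix

/-! ### The lower bound -/

section Main

variable {T : SHCat} (S : Susp T) (p : ℕ)

/-- There is a finite complex of type `n`, as the fixed points of a finite `G`-cell space. -/
def TypeN : Prop := ∀ K : ℕ → RingA T, (∀ i, IsMoravaK S p i (K i)) →
  ∀ (G : Type) [Group G] [Finite G], IsPGroup p G → ∀ n : ℕ,
    ∃ X : GCx G, (∀ j < n, Van S K j X ⊤) ∧ ¬ Van S K n X ⊤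

/-- **The stage lemma.** -/
def StageLemma : Prop := ∀ K : ℕ → RingA T, (∀ i, IsMoravaK S p i (K i)) →
  ∀ (G : Type) [Group G] [Finite G], IsPGroup p G → ∀ A : Subgroup G, A ≠ ⊤ →
    Stage (Van S K) relRank A

/-- **The lower bound** from the stage lemma and complexes of type `n`. -/
theorem lowerBound_of [Fact p.Prime] (hF : FixFC) (hT : TypeN S p) (hS : StageLemma S p) :
    LowerBound S p := by
  intro K hK G _ _ hG H n r hr
  obtain ⟨X, h1, h2⟩ := topDown (Van S K) relRank St.ell n (van_conj S hF K) ell_top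
    (ell_conj hG) (fun A B h _ hc => ell_le hG h hc) (hT K hK G hG n)
    fun A hA => hS K hK G hG A hA
  exact ⟨X.1, X.2, h2 H (n + r) (by omega), h1⟩

end Main

end Vale.Agent.P241.Final
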