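import Vale.Agent.P241.H132.Stage
import Vale.Agent.P241.H32.Weyl

/-!
# P241: `X^A` is a finite `W`-cell space

`weylGFC : H132.WeylGFC`, from `H32.gfc_wfix`.
-/

open Vale.Agent.P241.St Vale.Agent.P241.H137

namespace Vale.Agent.P241.Final

theorem weylGFC : H132.WeylGFC := fun G _ _ X hX A => by
  let e : (H32.wfix X A).carrier ≃ₜ (weyl X A).carrier :=
    Homeomorph.refl (MulAction.fixedPoints A X.carrier)
  refine H32.gfc_of_homeo (H32.gfc_wfix hX A) e fun w x => ?_
  obtain ⟨n, rfl⟩ := QuotientGroup.mk'_surjective (A.subgroupOf (NA A)) w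
  refine Subtype.ext ?_
  exact H32.wval_smul X A n x

end Vale.Agent.P241.Final
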