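import Vale.Agent.P241.Final.Assemble
import Vale.Agent.P241.Final.WeylGFC
import Vale.Agent.P241.BD.SkelFin
import Vale.Agent.P241.H132.Key
import Vale.Agent.P241.H208.YoungG
import Vale.Agent.P241.H302.RepLe
import Vale.Agent.P241.H32.GFCProps
import Vale.Agent.P241.H32.ResGFC
import Vale.Agent.P241.H435.Main
import Vale.Agent.P241.H585.TpFC
import Vale.Agent.P241.H796.Close
import Vale.Agent.P241.H83.StarQ

/-!
# P241: the lower bound from the last inputs

`lowerBound_of_last` : `LowerBound S p` from `LinStage` (bridge), `ConeG` (cone step), `YoungStmt`.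
-/

open Vale.Agent.P251.St Vale.Agent.P251.St.SHCat Vale.Agent.P241.St

namespace Vale.Agent.P241.Final

variable {T : SHCat} (S : Susp T) (p : ℕ)

theorem lowerBound_of_last [hp : Fact p.Prime]
    (hLin : ∀ (X : Ctx S) (t : ℕ), H302.LinStage X p t)
    (cone : H132.ConeG S p) (hY : R.YoungStmt S p) : LowerBound S p := by
  obtain ⟨X⟩ := Ctx.nonempty S
  exact lowerBound_of_blocks S p (VV := fun t _ _ v => R.VV X p t v)
    H32.trivGFC (H435.typeStmt_of_young hY) weylGFC Geo.tpFC H435.rkEx
    (H132.key_of X H32.resGFC H83.induce (H302.repLe p) (H796.nilStmt X p) (hLin X))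
    (BD.skelMap X hp.out) cone
    (H208.youngG_of_young (fun _ _ _ _ hX => H32.gfc_line hX)
      (fun _ _ _ _ hX m => H32.gfc_powG hX m) S hY)

end Vale.Agent.P241.Final
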