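import Vale.Agent.P241.Final.Low
import Vale.Agent.P241.H256.LinStage
import Vale.Agent.P241.H640.YStmt
import Vale.Agent.P241.H963.Gf
import Vale.Agent.P241.BD2.KAll

/-!
# P241: the lower bound from the cone step

* `youngStmt` : the block YOUNG.
* `lowerBound_of_cone` : `LowerBound S p` from `ConeG S p`.
-/

open Vale.Agent.P251.St Vale.Agent.P251.St.SHCat Vale.Agent.P241.St

namespace Vale.Agent.P241.Final

variable {T : SHCat} (S : Susp T) (p : ℕ)

theorem youngStmt [hp : Fact p.Prime] : R.YoungStmt S p :=
  H640.youngStmt_of_gfield S hp.out fun _ _ hK =>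
    ⟨_, BD2.gfield hK, YK.sphK_of_gfield (BD2.gfield hK)⟩

theorem lowerBound_of_cone [Fact p.Prime] (cone : H132.ConeG S p) : LowerBound S p :=
  lowerBound_of_last S p (fun X t => H256.linStage X p t) cone (youngStmt S p)

end Vale.Agent.P241.Final
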