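import Vale.Agent.P241.Final.BForm
import Vale.Agent.P241.Final.Level1
import Vale.Agent.P241.H137.Ell

/-!
# P241: the fixed points `X^A` as a space with an action of `W = N(A) / A`

* `weyl X A : GSpace (Weyl A)`, with underlying space `X.fix A` (definitionally);
* `weyl_smul` : the class of `n ∈ N(A)` acts as `n`.
-/

open OnePoint Vale.Agent.P251.St Vale.Agent.P251.St.SHCat Vale.Agent.P241.St

noncomputable section

namespace Vale.Agent.P241.Final

open H137

variable {G : Type} [Group G] (X : GSpace G) (A : Subgroup G)

theorem smul_mem_fix (n : NA A) {x : X.carrier} (hx : x ∈ MulAction.fixedPoints A X.carrier) :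
    (n : G) • x ∈ MulAction.fixedPoints A X.carrier := by
  rw [MulAction.mem_fixedPoints] at hx ⊢
  rintro ⟨a, ha⟩
  have h1 : (n : G)⁻¹ * a * n ∈ A := by
    have := (Subgroup.mem_normalizer_iff.1 (n⁻¹).2 a).1 ha
    simpa using this
  have h2 := hx ⟨_, h1⟩
  change ((n : G)⁻¹ * a * n) • x = x at h2
  change a • (n : G) • x = (n : G) • x
  calc a • (n : G) • x = (n : G) • ((n : G)⁻¹ * a * n) • x := by
        rw [smul_smul, smul_smul]
        congr 1
        group
    _ = (n : G) • x := by rw [h2]

/-- the permutation of `X^A` defined by `n ∈ N(A)` -/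
def fixPerm : NA A →* Equiv.Perm (MulAction.fixedPoints A X.carrier) where
  toFun n :=
    { toFun := fun x => ⟨(n : G) • x.1, smul_mem_fix X A n x.2⟩
      invFun := fun x => ⟨((n⁻¹ : NA A) : G) • x.1, smul_mem_fix X A n⁻¹ x.2⟩
      left_inv := fun x => Subtype.ext (by
        change ((n⁻¹ : NA A) : G) • (n : G) • x.1 = x.1
        simp)
      right_inv := fun x => Subtype.ext (by
        change (n : G) • ((n⁻¹ : NA A) : G) • x.1 = x.1
        simp) }
  map_one' := Equiv.ext fun x => Subtype.ext (one_smul G x.1)
  map_mul' n n' := Equiv.ext fun x => Subtype.ext (mul_smul (n : G) (n' : G) x.1)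

/-- the action of `W = N(A) / A` on `X^A` -/
def weylPerm : Weyl A →* Equiv.Perm (MulAction.fixedPoints A X.carrier) :=
  QuotientGroup.lift (A.subgroupOf (NA A)) (fixPerm X A) fun n hn => by
    refine Equiv.ext fun x => Subtype.ext ?_
    have hx := x.2
    rw [MulAction.mem_fixedPoints] at hx
    exact hx ⟨n, hn⟩

/-- The space `X^A` with the action of `W = N(A) / A`. -/
def weyl : GSpace (Weyl A) :=
  letI : MulAction (Weyl A) (MulAction.fixedPoints A X.carrier) :=
    MulAction.compHom _ (weylPerm X A)
  letI : LocallyCompactSpace (MulAction.fixedPoints A X.carrier) := X.lc_fixedPoints A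
  haveI : ContinuousConstSMul (Weyl A) (MulAction.fixedPoints A X.carrier) := ⟨fun w => by
    obtain ⟨n, rfl⟩ := QuotientGroup.mk'_surjective (A.subgroupOf (NA A)) w
    exact continuous_induced_rng.2 ((continuous_const_smul (n : G)).comp continuous_subtype_val)⟩
  ⟨MulAction.fixedPoints A X.carrier⟩

theorem weyl_und : (weyl X A).und = X.fix A := rfl

theorem weyl_smul (n : NA A) (x : MulAction.fixedPoints A X.carrier) :
    ((show MulAction.fixedPoints A X.carrier from
      (QuotientGroup.mk' (A.subgroupOf (NA A)) n • (show (weyl X A).carrier from x))) : X.carrier) =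
      (n : G) • (x : X.carrier) := rfl

end Vale.Agent.P241.Final
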